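import Vale.Agent.P113.Statement
import Vale.Agent.P113.Machines
import Vale.Agent.P113.Flow
import Vale.Agent.P113.Unique
import Vale.Agent.P113.Universal

namespace Vale.Agent.Results.P113.HaltingFlow

open Vale.Agent.P113

theorem result : HaltingDetection := by
  obtain ⟨S, A, B, C, D, m, hm, hsim⟩ := universalSpec HaltCode haltCode_re
  have hm0 : 0 < m := by omega
  let F : Machine × List ℕ → Force := fun p =>
    forcing (S.fieldV A C) (S.fieldW B D) (m ^ Encodable.encode p)
  have hV := S.fieldV_valid A C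
  have hW := S.fieldW_valid B D
  obtain ⟨T₀, hT₀⟩ := forcing_T0 hV hW
  refine ⟨fun _ => 0, Planar.boxLo, Planar.boxHi, F, ?_, computable_forcing _ _ m,
    fun p i => forcing_valid hV hW _ i, ?_, ⟨T₀, fun ν p i => hT₀ ν _ (pow_pos hm0 _) i⟩, ?_⟩
  · intro i
    fin_cases i <;> norm_num [Planar.boxLo, Planar.boxHi]
  · intro M w w' i
    simp only [F, forcing_filter (S.fieldW_transient B D)]
  intro ν hν M w
  let n := Encodable.encode (M, w)
  let d := m ^ n
  have hd : 0 < d := pow_pos hm0 _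
  let u := velocity ν (S.fieldV A C) (S.fieldW B D) d
  have hsmooth := velocity_contDiff (ν := ν) (d := d) hV hW
  have hclass : ∀ T, IsClassical ν ((F (M, w)).fn ν) T u (fun _ _ => 0) := fun T =>
    velocity_classical hV hW (S.fieldV_shearForm A C) (S.fieldW_shearForm B D) hd
      (fun x => S.velocity_zero ν x) T
  let qx : ℚ := A + B / d
  let qy : ℚ := C + D / d
  let X := slotPath 13 (S.shearSeq qx qy) 0
  have hX : IsTrajectory u (fun _ => ((0 : ℚ) : ℝ)) X := by
    have h := slotPath_trajectory (N := 13) (by norm_num) (S.shearSeq_ok qx qy)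
      (S.velocity_performs ν) (0 : Fin 3 → ℝ)
    have e : (fun _ : Fin 3 => ((0 : ℚ) : ℝ)) = 0 := by funext i; simp
    rw [e]
    exact h
  refine ⟨u, fun _ _ => 0, hsmooth, contDiff_const, fun T _ => hclass T,
    fun T hT v q hv => uniqueSpec ν hν _ T hT u v _ q (hclass T) hv, ⟨X, hX⟩, fun Y hY => ?_⟩
  have hYX : ∀ t, 0 ≤ t → Y t = X t :=
    trajectory_unique (hsmooth.of_le (WithTop.coe_le_coe.2 le_top)) hY hX
  obtain ⟨hunit, hyes, hno⟩ := hsim n
  have hq : (((qx : ℝ), (qy : ℝ)) : ℝ × ℝ) =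
      ((A : ℝ) + (B : ℝ) / (m : ℝ) ^ n, (C : ℝ) + (D : ℝ) / (m : ℝ) ^ n) := by
    simp [qx, qy, d]
  simp only at hyes hno hunit
  rw [← hq] at hyes hno
  have hqy : (0 : ℝ) ≤ qy ∧ (qy : ℝ) ≤ 1 := by
    obtain ⟨-, -, h1, h2⟩ := hunit
    have := congrArg Prod.snd hq
    simp only at this
    rw [this]
    exact ⟨h1, h2⟩
  constructor
  · rintro ⟨t, ht, hmem⟩
    by_contra hh
    rw [hYX t ht] at hmem
    exact S.runs_no_hit qx qy hqy (hno fun h => hh ((haltCode_encode (M, w)).1 h)) t ht hmem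
  · intro hh
    obtain ⟨t, ht, hmem⟩ := S.reaches_hit qx qy (hyes ((haltCode_encode (M, w)).2 hh))
    exact ⟨t, ht, by rw [hYX t ht]; exact hmem⟩

end Vale.Agent.Results.P113.HaltingFlow
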